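import Vale.Agent.P224.R2.H545.Par

/-!
Columns of the closing list, part 10.
-/

namespace Vale.Agent.P224.R2.H545

open Vale.Agent.P224.R2.H460 Vale.Agent.P224.R2.H662
open Vale.Agent.P224.R2.H255 (risB)
open Vale.Agent.P224.R2.H579 (elsB)

/-- the column `(17 / 200, 7 / 80]` -/
def col35 : ColS :=
  mkCol 400 risB (7 / 80) (some (361 / 5000, 13 / 2500)) (43 / 2000)
   [⟨1 / 5000, 101 / 5000, 255, 14, 250, 2137 / 2500, 57 / 4, 23 / 5, 9 / 8, 549 / 50000,
     (some 146), false⟩,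
    ⟨1 / 625, 441 / 5000, 198, 14, 250, 1701 / 2000, 59 / 4, 22 / 5, 9 / 8, 1057 / 100000, none,
     false⟩,
    ⟨51 / 20000, 221 / 20000, 199, 15, 250, 2133 / 2500, 139 / 10, 21 / 5, 227 / 200,
     1121 / 100000, none, false⟩,
    ⟨2 / 625, 139 / 20000, 199, 61, 1000, 8869 / 10000, 273 / 20, 22 / 5, 1139 / 1000,
     153 / 12500, none, false⟩,
    ⟨8 / 625, 111 / 20000, 200, 15, 250, 421 / 500, 277 / 20, 41 / 10, 227 / 200, 1099 / 100000,
     none, true⟩,
    ⟨31 / 100, 7 / 5000, 202, 10, 250, 5417 / 10000, 53 / 4, 16 / 5, 543 / 500, 99 / 20000, none,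
     true⟩]

theorem col35_ok : col35.ok par risB elsB (17 / 200) = true := by decide +kernel

/-- the column `(7 / 80, 9 / 100]` -/
def col36 : ColS :=
  mkCol 400 risB (9 / 100) (some (717 / 10000, 27 / 5000)) (43 / 2000)
   [⟨1 / 5000, 43 / 2000, 255, 14, 250, 213 / 250, 143 / 10, 23 / 5, 9 / 8, 34 / 3125,
     (some 148), false⟩,
    ⟨1 / 625, 441 / 5000, 198, 14, 250, 8471 / 10000, 59 / 4, 22 / 5, 9 / 8, 1049 / 100000, none,
     false⟩,
    ⟨29 / 10000, 221 / 20000, 199, 15, 250, 531 / 625, 139 / 10, 21 / 5, 227 / 200, 139 / 12500,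
     none, false⟩,
    ⟨29 / 5000, 61 / 10000, 199, 14, 250, 8463 / 10000, 279 / 20, 43 / 10, 9 / 8, 1101 / 100000,
     none, true⟩,
    ⟨116 / 625, 61 / 20000, 200, 11, 250, 6599 / 10000, 279 / 20, 37 / 10, 137 / 125, 43 / 6250,
     none, true⟩,
    ⟨31 / 100, 1 / 10000, 204, 10, 250, 1349 / 2500, 259 / 20, 16 / 5, 543 / 500, 251 / 50000,
     none, true⟩]

theorem col36_ok : col36.ok par risB elsB (7 / 80) = true := by decide +kernel

/-- the column `(9 / 100, 37 / 400]` -/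
def col37 : ColS :=
  mkCol 400 risB (37 / 400) (some (713 / 10000, 7 / 1250)) (43 / 2000)
   [⟨1 / 5000, 229 / 10000, 256, 14, 250, 8479 / 10000, 291 / 20, 23 / 5, 9 / 8, 53 / 5000,
     (some 150), false⟩,
    ⟨2 / 625, 441 / 5000, 205, 13, 250, 1051 / 1250, 303 / 20, 23 / 5, 223 / 200, 1009 / 100000,
     none, false⟩,
    ⟨32 / 625, 111 / 20000, 207, 13, 250, 7939 / 10000, 287 / 20, 21 / 5, 223 / 200,
     953 / 100000, none, true⟩,
    ⟨31 / 100, 7 / 20000, 211, 10, 250, 1339 / 2500, 263 / 20, 16 / 5, 543 / 500, 61 / 12500,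
     none, true⟩]

theorem col37_ok : col37.ok par risB elsB (9 / 100) = true := by decide +kernel

/-- the column `(37 / 400, 19 / 200]` -/
def col38 : ColS :=
  mkCol 400 risB (19 / 200) (some (177 / 2500, 29 / 5000)) (257 / 10000)
   [⟨1 / 5000, 61 / 2500, 256, 14, 250, 4221 / 5000, 291 / 20, 23 / 5, 9 / 8, 1051 / 100000,
     (some 152), false⟩,
    ⟨1 / 625, 441 / 5000, 205, 13, 250, 2099 / 2500, 15, 23 / 5, 223 / 200, 507 / 50000, none,
     false⟩,
    ⟨51 / 20000, 221 / 20000, 206, 14, 250, 8429 / 10000, 141 / 10, 22 / 5, 9 / 8, 1081 / 100000,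
     none, false⟩,
    ⟨51 / 2500, 139 / 20000, 206, 14, 250, 8219 / 10000, 289 / 20, 43 / 10, 9 / 8, 1009 / 100000,
     none, true⟩,
    ⟨31 / 100, 9 / 10000, 209, 10, 250, 2651 / 5000, 133 / 10, 16 / 5, 543 / 500, 473 / 100000,
     none, true⟩]

theorem col38_ok : col38.ok par risB elsB (37 / 400) = true := by decide +kernel

end Vale.Agent.P224.R2.H545
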