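import Vale.Agent.P224.R2.H545.Par

/-!
Columns of the closing list, part 11.
-/

namespace Vale.Agent.P224.R2.H545

open Vale.Agent.P224.R2.H460 Vale.Agent.P224.R2.H662
open Vale.Agent.P224.R2.H255 (risB)
open Vale.Agent.P224.R2.H579 (elsB)

/-- the column `(19 / 200, 39 / 400]` -/
def col39 : ColS :=
  mkCol 400 risB (39 / 400) (some (44 / 625, 3 / 500)) (257 / 10000)
   [⟨1 / 5000, 13 / 500, 256, 14, 250, 8413 / 10000, 73 / 5, 23 / 5, 9 / 8, 1041 / 100000,
     (some 154), false⟩,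
    ⟨1 / 625, 441 / 5000, 205, 13, 250, 8369 / 10000, 301 / 20, 23 / 5, 223 / 200, 503 / 50000,
     none, false⟩,
    ⟨29 / 10000, 221 / 20000, 206, 14, 250, 8393 / 10000, 283 / 20, 22 / 5, 9 / 8, 107 / 10000,
     none, false⟩,
    ⟨58 / 625, 61 / 10000, 206, 12, 250, 929 / 1250, 59 / 4, 41 / 10, 221 / 200, 41 / 5000, none,
     true⟩,
    ⟨31 / 100, 1 / 5000, 211, 10, 250, 1321 / 2500, 131 / 10, 16 / 5, 543 / 500, 477 / 100000,
     none, true⟩]

theorem col39_ok : col39.ok par risB elsB (19 / 200) = true := by decide +kernel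

/-- the column `(39 / 400, 1 / 10]` -/
def col40 : ColS :=
  mkCol 400 risB (1 / 10) (some (7 / 100, 31 / 5000)) (257 / 10000)
   [⟨1 / 5000, 139 / 5000, 256, 14, 250, 419 / 500, 73 / 5, 23 / 5, 9 / 8, 1033 / 100000,
     (some 156), false⟩,
    ⟨1 / 625, 441 / 5000, 205, 13, 250, 8337 / 10000, 301 / 20, 23 / 5, 223 / 200, 999 / 100000,
     none, false⟩,
    ⟨4 / 625, 221 / 20000, 206, 14, 250, 2079 / 2500, 143 / 10, 43 / 10, 9 / 8, 521 / 50000,
     none, true⟩,
    ⟨31 / 100, 7 / 2500, 207, 9, 250, 5199 / 10000, 68 / 5, 17 / 5, 1077 / 1000, 89 / 20000,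
     none, true⟩]

theorem col40_ok : col40.ok par risB elsB (39 / 400) = true := by decide +kernel

/-- the column `(1 / 10, 41 / 400]` -/
def col41 : ColS :=
  mkCol 400 risB (41 / 400) (some (87 / 1250, 63 / 10000)) (257 / 10000)
   [⟨1 / 5000, 37 / 1250, 257, 13, 250, 521 / 625, 15, 49 / 10, 223 / 200, 997 / 100000,
     (some 158), false⟩,
    ⟨2 / 625, 441 / 5000, 212, 13, 250, 1027 / 1250, 153 / 10, 47 / 10, 223 / 200, 191 / 20000,
     none, false⟩,
    ⟨128 / 625, 111 / 20000, 213, 10, 250, 388 / 625, 74 / 5, 39 / 10, 543 / 500, 579 / 100000,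
     none, true⟩,
    ⟨31 / 100, 1 / 10000, 218, 10, 250, 319 / 625, 51 / 4, 16 / 5, 543 / 500, 457 / 100000, none,
     true⟩]

theorem col41_ok : col41.ok par risB elsB (1 / 10) = true := by decide +kernel

/-- the column `(41 / 400, 21 / 200]` -/
def col42 : ColS :=
  mkCol 400 risB (21 / 200) (some (693 / 10000, 13 / 2000)) (91 / 2000)
   [⟨1 / 5000, 317 / 10000, 257, 13, 250, 8301 / 10000, 15, 24 / 5, 223 / 200, 989 / 100000,
     (some 160), false⟩,
    ⟨3 / 2500, 441 / 5000, 212, 13, 250, 103 / 125, 61 / 4, 47 / 10, 223 / 200, 963 / 100000,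
     none, false⟩,
    ⟨48 / 625, 147 / 10000, 213, 12, 250, 3729 / 5000, 303 / 20, 21 / 5, 221 / 200, 161 / 20000,
     none, true⟩,
    ⟨31 / 100, 1 / 4000, 218, 10, 250, 1263 / 2500, 127 / 10, 16 / 5, 543 / 500, 449 / 100000,
     none, true⟩]

theorem col42_ok : col42.ok par risB elsB (41 / 400) = true := by decide +kernel

/-- the column `(21 / 200, 43 / 400]` -/
def col43 : ColS :=
  mkCol 400 risB (43 / 400) (some (689 / 10000, 67 / 10000)) (91 / 2000)
   [⟨1 / 5000, 169 / 5000, 257, 13, 250, 8269 / 10000, 301 / 20, 24 / 5, 223 / 200, 49 / 5000,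
     (some 162), false⟩,
    ⟨1 / 625, 441 / 5000, 212, 13, 250, 819 / 1000, 61 / 4, 23 / 5, 223 / 200, 119 / 12500, none,
     false⟩,
    ⟨64 / 625, 221 / 20000, 213, 12, 250, 7141 / 10000, 15, 41 / 10, 221 / 200, 747 / 100000,
     none, true⟩,
    ⟨31 / 100, 1 / 5000, 218, 9, 250, 5121 / 10000, 66 / 5, 33 / 10, 1077 / 1000, 111 / 25000,
     none, true⟩]

theorem col43_ok : col43.ok par risB elsB (21 / 200) = true := by decide +kernel

/-- the column `(43 / 400, 11 / 100]` -/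
def col44 : ColS :=
  mkCol 400 risB (11 / 100) (some (137 / 2000, 69 / 10000)) (91 / 2000)
   [⟨1 / 5000, 723 / 20000, 257, 13, 250, 1647 / 2000, 301 / 20, 24 / 5, 223 / 200, 243 / 25000,
     (some 164), false⟩,
    ⟨1 / 625, 441 / 5000, 212, 13, 250, 4071 / 5000, 76 / 5, 23 / 5, 223 / 200, 189 / 20000,
     none, false⟩,
    ⟨64 / 625, 221 / 20000, 213, 11, 250, 1419 / 2000, 299 / 20, 21 / 5, 137 / 125, 739 / 100000,
     none, true⟩,
    ⟨31 / 100, 1 / 5000, 218, 9, 250, 2543 / 5000, 66 / 5, 33 / 10, 1077 / 1000, 219 / 50000,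
     none, true⟩]

theorem col44_ok : col44.ok par risB elsB (43 / 400) = true := by decide +kernel

end Vale.Agent.P224.R2.H545
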