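import Vale.Agent.P224.R2.H545.Par

/-!
Columns of the closing list, part 6.
-/

namespace Vale.Agent.P224.R2.H545

open Vale.Agent.P224.R2.H460 Vale.Agent.P224.R2.H662
open Vale.Agent.P224.R2.H255 (risB)
open Vale.Agent.P224.R2.H579 (elsB)

/-- the column `(9 / 200, 19 / 400]` -/
def col19 : ColS :=
  mkCol 400 risB (19 / 400) (some (817 / 10000, 1 / 400)) (49 / 5000)
   [⟨1 / 5000, 143 / 20000, 245, 17, 250, 9077 / 10000, 257 / 20, 4, 289 / 250, 677 / 50000,
     (some 90), false⟩,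
    ⟨1 / 2000, 11 / 800, 143, 17, 250, 9073 / 10000, 63 / 5, 19 / 5, 289 / 250, 69 / 5000,
     (some 91), false⟩,
    ⟨3 / 4000, 77 / 4000, 144, 17, 250, 9077 / 10000, 251 / 20, 19 / 5, 289 / 250, 347 / 25000,
     (some 92), false⟩,
    ⟨3 / 500, 471 / 20000, 144, 17, 250, 1801 / 2000, 64 / 5, 37 / 10, 289 / 250, 269 / 20000,
     none, false⟩,
    ⟨12 / 125, 59 / 20000, 246, 15, 250, 4041 / 5000, 253 / 20, 17 / 5, 227 / 200, 1113 / 100000,
     none, false⟩,
    ⟨31 / 100, 1 / 5000, 246, 12, 250, 743 / 1250, 12, 29 / 10, 221 / 200, 651 / 100000, none,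
     true⟩]

theorem col19_ok : col19.ok par risB elsB (9 / 200) = true := by decide +kernel

/-- the column `(19 / 400, 1 / 20]` -/
def col20 : ColS :=
  mkCol 400 risB (1 / 20) (some (809 / 10000, 27 / 10000)) (49 / 5000)
   [⟨1 / 5000, 19 / 2500, 247, 16, 250, 4523 / 5000, 259 / 20, 41 / 10, 573 / 500, 267 / 20000,
     (some 96), false⟩,
    ⟨1 / 2000, 37 / 2500, 150, 17, 250, 4523 / 5000, 127 / 10, 39 / 10, 289 / 250, 681 / 50000,
     (some 97), false⟩,
    ⟨1 / 125, 353 / 10000, 151, 16, 250, 8941 / 10000, 13, 19 / 5, 573 / 500, 1309 / 100000,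
     none, false⟩,
    ⟨16 / 125, 9 / 4000, 248, 15, 250, 7731 / 10000, 127 / 10, 33 / 10, 227 / 200, 51 / 5000,
     none, true⟩,
    ⟨31 / 100, 3 / 20000, 248, 12, 250, 2957 / 5000, 241 / 20, 29 / 10, 221 / 200, 643 / 100000,
     none, true⟩]

theorem col20_ok : col20.ok par risB elsB (19 / 400) = true := by decide +kernel

/-- the column `(1 / 20, 21 / 400]` -/
def col21 : ColS :=
  mkCol 400 risB (21 / 400) (some (401 / 5000, 7 / 2500)) (49 / 5000)
   [⟨1 / 5000, 163 / 20000, 249, 16, 250, 2253 / 2500, 131 / 10, 21 / 5, 573 / 500, 41 / 3125,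
     (some 102), false⟩,
    ⟨4 / 625, 441 / 5000, 157, 16, 250, 4453 / 5000, 273 / 20, 39 / 10, 573 / 500, 1243 / 100000,
     none, false⟩,
    ⟨64 / 625, 7 / 2500, 162, 15, 250, 3977 / 5000, 129 / 10, 7 / 2, 227 / 200, 53 / 5000, none,
     false⟩,
    ⟨31 / 100, 1 / 5000, 162, 12, 250, 47 / 80, 61 / 5, 29 / 10, 221 / 200, 627 / 100000, none,
     true⟩]

theorem col21_ok : col21.ok par risB elsB (1 / 20) = true := by decide +kernel

/-- the column `(21 / 400, 11 / 200]` -/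
def col22 : ColS :=
  mkCol 400 risB (11 / 200) (some (159 / 2000, 3 / 1000)) (119 / 10000)
   [⟨1 / 5000, 7 / 800, 249, 16, 250, 8977 / 10000, 131 / 10, 41 / 10, 573 / 500, 651 / 50000,
     (some 108), false⟩,
    ⟨8 / 625, 441 / 5000, 157, 15, 250, 8801 / 10000, 69 / 5, 39 / 10, 227 / 200, 241 / 20000,
     none, false⟩,
    ⟨31 / 100, 7 / 5000, 162, 12, 250, 1453 / 2500, 61 / 5, 29 / 10, 221 / 200, 613 / 100000,
     none, true⟩]

theorem col22_ok : col22.ok par risB elsB (21 / 400) = true := by decide +kernel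

/-- the column `(11 / 200, 23 / 400]` -/
def col23 : ColS :=
  mkCol 400 risB (23 / 400) (some (197 / 2500, 2 / 625)) (119 / 10000)
   [⟨1 / 5000, 187 / 20000, 250, 16, 250, 8947 / 10000, 133 / 10, 21 / 5, 573 / 500, 319 / 25000,
     (some 114), false⟩,
    ⟨8 / 625, 441 / 5000, 164, 15, 250, 4383 / 5000, 279 / 20, 4, 227 / 200, 37 / 3125, none,
     false⟩,
    ⟨31 / 100, 7 / 5000, 169, 11, 250, 5809 / 10000, 249 / 20, 31 / 10, 137 / 125, 601 / 100000,
     none, true⟩]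

theorem col23_ok : col23.ok par risB elsB (11 / 200) = true := by decide +kernel

end Vale.Agent.P224.R2.H545
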