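import Vale.Agent.P224.R2.H545.Par

/-!
Columns of the closing list, part 7.
-/

namespace Vale.Agent.P224.R2.H545

open Vale.Agent.P224.R2.H460 Vale.Agent.P224.R2.H662
open Vale.Agent.P224.R2.H255 (risB)
open Vale.Agent.P224.R2.H579 (elsB)

/-- the column `(23 / 400, 3 / 50]` -/
def col24 : ColS :=
  mkCol 400 risB (3 / 50) (some (781 / 10000, 33 / 10000)) (119 / 10000)
   [⟨1 / 5000, 199 / 20000, 250, 16, 250, 8917 / 10000, 133 / 10, 21 / 5, 573 / 500, 317 / 25000,
     (some 120), false⟩,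
    ⟨4 / 625, 441 / 5000, 163, 15, 250, 8803 / 10000, 141 / 10, 41 / 10, 227 / 200, 59 / 5000,
     none, false⟩,
    ⟨64 / 625, 7 / 2500, 168, 14, 250, 393 / 500, 131 / 10, 18 / 5, 9 / 8, 1021 / 100000, none,
     true⟩,
    ⟨31 / 100, 1 / 5000, 169, 11, 250, 1157 / 2000, 247 / 20, 31 / 10, 137 / 125, 3 / 500, none,
     true⟩]

theorem col24_ok : col24.ok par risB elsB (23 / 400) = true := by decide +kernel

/-- the column `(3 / 50, 1 / 16]` -/
def col25 : ColS :=
  mkCol 400 risB (1 / 16) (some (31 / 400, 7 / 2000)) (119 / 10000)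
   [⟨1 / 5000, 53 / 5000, 251, 16, 250, 8883 / 10000, 269 / 20, 21 / 5, 573 / 500, 249 / 20000,
     (some 126), false⟩,
    ⟨4 / 625, 441 / 5000, 170, 15, 250, 548 / 625, 57 / 4, 41 / 10, 227 / 200, 579 / 50000, none,
     false⟩,
    ⟨64 / 625, 7 / 2500, 175, 14, 250, 3913 / 5000, 66 / 5, 18 / 5, 9 / 8, 503 / 50000, none,
     true⟩,
    ⟨31 / 100, 1 / 5000, 176, 11, 250, 5751 / 10000, 249 / 20, 31 / 10, 137 / 125, 589 / 100000,
     none, true⟩]

theorem col25_ok : col25.ok par risB elsB (3 / 50) = true := by decide +kernel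

/-- the column `(1 / 16, 13 / 200]` -/
def col26 : ColS :=
  mkCol 400 risB (13 / 200) (some (769 / 10000, 37 / 10000)) (139 / 10000)
   [⟨1 / 5000, 227 / 20000, 251, 16, 250, 8849 / 10000, 269 / 20, 21 / 5, 573 / 500, 309 / 25000,
     (some 128), false⟩,
    ⟨2 / 625, 441 / 5000, 170, 15, 250, 4387 / 5000, 141 / 10, 41 / 10, 227 / 200, 1171 / 100000,
     none, false⟩,
    ⟨23 / 4000, 111 / 20000, 173, 16, 250, 4401 / 5000, 13, 39 / 10, 573 / 500, 1269 / 100000,
     none, false⟩,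
    ⟨23 / 250, 31 / 10000, 174, 14, 250, 7899 / 10000, 133 / 10, 37 / 10, 9 / 8, 127 / 12500,
     none, true⟩,
    ⟨31 / 100, 1 / 5000, 176, 11, 250, 5719 / 10000, 249 / 20, 31 / 10, 137 / 125, 583 / 100000,
     none, true⟩]

theorem col26_ok : col26.ok par risB elsB (1 / 16) = true := by decide +kernel

/-- the column `(13 / 200, 27 / 400]` -/
def col27 : ColS :=
  mkCol 400 risB (27 / 400) (some (763 / 10000, 19 / 5000)) (139 / 10000)
   [⟨1 / 5000, 241 / 20000, 252, 15, 250, 4407 / 5000, 68 / 5, 22 / 5, 227 / 200, 243 / 20000,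
     (some 130), false⟩,
    ⟨2 / 625, 441 / 5000, 177, 15, 250, 8741 / 10000, 57 / 4, 21 / 5, 227 / 200, 23 / 2000, none,
     false⟩,
    ⟨23 / 4000, 111 / 20000, 180, 16, 250, 4383 / 5000, 131 / 10, 39 / 10, 573 / 500,
     1249 / 100000, none, false⟩,
    ⟨23 / 250, 31 / 10000, 181, 14, 250, 1573 / 2000, 67 / 5, 37 / 10, 9 / 8, 1001 / 100000,
     none, true⟩,
    ⟨31 / 100, 1 / 5000, 183, 11, 250, 1137 / 2000, 251 / 20, 31 / 10, 137 / 125, 143 / 25000,
     none, true⟩]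

theorem col27_ok : col27.ok par risB elsB (13 / 200) = true := by decide +kernel

/-- the column `(27 / 400, 7 / 100]` -/
def col28 : ColS :=
  mkCol 400 risB (7 / 100) (some (757 / 10000, 1 / 250)) (139 / 10000)
   [⟨1 / 5000, 129 / 10000, 252, 15, 250, 2197 / 2500, 273 / 20, 22 / 5, 227 / 200, 301 / 25000,
     (some 132), false⟩,
    ⟨2 / 625, 441 / 5000, 177, 15, 250, 1743 / 2000, 143 / 10, 21 / 5, 227 / 200, 57 / 5000,
     none, false⟩,
    ⟨4 / 625, 111 / 20000, 180, 16, 250, 8723 / 10000, 131 / 10, 39 / 10, 573 / 500, 619 / 50000,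
     none, false⟩,
    ⟨64 / 625, 7 / 2500, 181, 14, 250, 7729 / 10000, 67 / 5, 18 / 5, 9 / 8, 969 / 100000, none,
     true⟩,
    ⟨31 / 100, 1 / 5000, 183, 11, 250, 1413 / 2500, 251 / 20, 31 / 10, 137 / 125, 283 / 50000,
     none, true⟩]

theorem col28_ok : col28.ok par risB elsB (27 / 400) = true := by decide +kernel

end Vale.Agent.P224.R2.H545
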