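import Vale.Agent.P224.R2.H460.Cl5

/-!
Generation of the cells of the closing list from a few numbers.
-/

namespace Vale.Agent.P224.R2.H545

open Vale.Agent.P224.R2.H460 Vale.Agent.P224.R2.H662

/-- Newton iteration for the integer square root -/
def nwt (n : ℕ) : ℕ → ℕ → ℕ
  | 0, g => g
  | k + 1, g => nwt n k ((g + n / g) / 2)

/-- an integer square root, rounded up by at most one or two -/
def rt (n : ℕ) : ℕ := nwt n 7 (2 ^ (n.log2 / 2 + 1)) + 1

/-- a rational square root with denominator `d`, rounded up -/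
def sq (x : ℚ) (d : ℕ) : ℚ := mkRat (rt (x.num.toNat * d ^ 2 / x.den)) d

/-- the multiple of `1 / d` above `x` -/
def upq (x : ℚ) (d : ℕ) : ℚ := mkRat ((x.num.toNat * d / x.den : ℕ) + 1 : ℕ) d

/-- the numbers of a cell: upper end `hb` of the defect, ratio `ep`, index of the rare bound,
number `N` and inverse width `K` of the levels, line `a - b T`, numbers `δ cs c0` of the
integration, index of the bound of the mean normal, kind of the tail -/
structure Sc where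
  hb : ℚ
  ep : ℚ
  ri : ℕ
  N : ℕ
  K : ℕ
  a : ℚ
  b : ℚ
  δ : ℚ
  cs : ℚ
  c0 : ℚ
  el : Option ℕ
  ab : Bool

section

variable (m0 : ℕ) (ν : ℚ) (r : RaR) (S : Sc)

/-- the data of the box -/
def Sc.dt : Dt :=
  { ν := ν, hb := S.hb, ep := S.ep, s := sq (S.ep * 7 / (16 * ν)) 100, Q := r.Q, A := r.A
    yy := sq (3 * (r.A * S.hb)) 2000, rn := sq (ν + S.hb) 1000
    re := sq S.ep 2000, q6 := sq (36 / (m0 + 1)) 1000 }

/-- the box -/
def Sc.bx : Bx :=
  let k := ν / (1 - ν)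
  let Ts := mkRat (10 * S.N - 1) (10 * S.K)
  let D := S.dt m0 ν r
  let κ := upq (k * (m0 + 1) / m0) 20000
  let x2 := upq (8 / 7 * D.A + 51 / 100 * D.hb) 50
  let x3 := upq (269 / 50 * D.A) 20
  { κ := κ, A0 := r.A0, c := D.Q, ε := r.ε
    η := sq (sq (3 * (1 + Ts) * r.ε ^ 2 / (1 - Ts) ^ 3) 1000000) 10000
    κ1 := sq κ 2000, c1 := sq (D.Q / (1 - Ts)) 500, m1 := sq ((1 + Ts) / m0) 10000
    m0 := m0, x0 := S.hb, x1 := D.yy, x2 := x2, x3 := x3
    f1 := upq ((1 + D.s) * (16 / 7 * k) + (1 + 1 / D.s) * (1 / (1 - ν) * S.ep)) 5000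
    f2 := upq (8 / 7 * D.Q + 5 / 6 * k ^ 2 * S.hb) 100, f3 := upq (269 / 50 * D.Q) 20
    y0 := 0, y1 := D.yy, y2 := x2, y3 := x3
    g1 := upq (16 / 7 + (7 / 2 + 4 / (m0 + 2)) * S.ep + (D.q6 + 4 * D.rn) * D.re) 1000
    g2 := 103 / 5, g3 := 0, a := S.a, b := S.b, dT := mkRat 1 S.K, Ts := Ts }

/-- the levels from `Ta` on -/
def mkL (B : Bx) : ℕ → ℚ → List (ℚ × ℚ × ℚ)
  | 0, _ => []
  | n + 1, Ta =>
    let Tb := Ta + B.dT
    let l := B.a - B.b * Ta
    let u := sq (2 * B.A0 * l) 1000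
    let x := sq (B.ff Tb * B.yy Tb) 10000
    let v := (1 + u + B.η) / (1 - Tb)
    let w := 1 + Tb * v
    let s := (1 + Tb) * B.κ * w ^ 2 + 2 * Tb ^ 2 * (B.c1 * B.κ1 * (v + (1 + Tb) * w)) + Tb ^ 2 * B.c
      + (B.ch Tb + 2 * x)
    let q := 1 - s - (B.m1 * w + Tb) ^ 2
    (u, x, sq q 100) :: mkL B n Tb

/-- the cell -/
def Sc.cell : CellS :=
  { hb := S.hb, B := S.bx m0 ν r, D := S.dt m0 ν r, l := mkL (S.bx m0 ν r) S.N 0
    δ := S.δ, cs := S.cs, c0 := S.c0, ri := S.ri, el := S.el, ab := S.ab }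

end

/-- a column: upper end, constants of the cubic term (`none`: not used), relative tail, cells -/
def mkCol (m0 : ℕ) (ris : List RaR) (νb : ℚ) (mac : Option (ℚ × ℚ)) (rel : ℚ) (l : List Sc) :
    ColS :=
  { νb := νb, mac := mac.isSome, c := (mac.getD (0, 0)).1, cu := (mac.getD (0, 0)).2, rel := rel
    cells := l.map fun S => S.cell m0 νb (ris.getD S.ri ⟨1, 1, 1, 1, 1, 1, false⟩) }

end Vale.Agent.P224.R2.H545
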